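import Mathlib
import Vale.Agent.P181.T4.Typ

/-!
P181, T4: the numerical comparison (H1).  For `a` large and `a + a^(3δ) ≤ b ≤ a²`, the loss
`(Lam+1)^(aR) * C(N+m-1, m)` is at most the gain `2^((N-a)*(m/(2(N+Lam))))`.
-/

namespace Vale.Agent.P181.H661

open Filter

/-- Number of top positions. -/
theorem core_T {x β ℓ y A : ℝ} (hy1 : 100 ≤ y) (hAly : A * ℓ ≤ y / 100)
    (hy3x : y ^ 3 ≤ x) (hxb : x + y ^ 6 ≤ β) :
    y ^ 2 * (A * β * ℓ / x + 3) ≤ (β - x) / 2 := by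
  have hy0 : 0 < y := by linarith
  have hy3 : 1 ≤ y ^ 3 := one_le_pow₀ (by linarith)
  have hx0 : 0 < x := by linarith
  have hy6 : 0 < y ^ 6 := by positivity
  have hβ0 : 0 < β := by linarith
  have hy2 : 0 < y ^ 2 := by positivity
  rcases le_total β (2 * x) with h | h
  · have h1 : A * β * ℓ / x ≤ y / 50 := by
      rw [div_le_iff₀ hx0]
      have : A * β * ℓ = (A * ℓ) * β := by ring
      rw [this]
      calc (A * ℓ) * β ≤ (y / 100) * β := by gcongr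
        _ ≤ (y / 100) * (2 * x) := by gcongr
        _ = y / 50 * x := by ring
    have h2 : y ^ 2 * (A * β * ℓ / x + 3) ≤ y ^ 2 * (y / 2) := by
      gcongr
      linarith
    have h4 : y ^ 3 ≤ y ^ 6 := pow_le_pow_right₀ (by linarith) (by norm_num)
    have h5 : y ^ 2 * (y / 2) = y ^ 3 / 2 := by ring
    linarith
  · have h1 : y ^ 2 * (A * β * ℓ / x) ≤ β / 100 := by
      have h5 : y ^ 2 * (A * β * ℓ / x) = (A * ℓ) * y ^ 2 * β / x := by ring
      rw [h5, div_le_iff₀ hx0]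
      calc (A * ℓ) * y ^ 2 * β ≤ (y / 100) * y ^ 2 * β := by gcongr
        _ = y ^ 3 * (β / 100) := by ring
        _ ≤ x * (β / 100) := by gcongr
        _ = β / 100 * x := by ring
    have h2 : y ^ 2 * 3 ≤ y ^ 3 / 33 := by
      have : y ^ 3 / 33 = y ^ 2 * (y / 33) := by ring
      rw [this]
      gcongr
      linarith
    have h3 : y ^ 2 * (A * β * ℓ / x + 3) = y ^ 2 * (A * β * ℓ / x) + y ^ 2 * 3 := by ring
    rw [h3]
    linarith

/-- The gain exceeds the losses. -/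
theorem core_gain {x β ℓ y : ℝ} (hy1 : 100 ≤ y) (hly : ℓ ≤ y / 100) (hyx : y ^ 6 ≤ x)
    (hxb : x + y ^ 6 ≤ β) : 8 * ℓ * (x * y ^ 2 + β) ≤ (β - x) / 2 * (x / y) := by
  have hy0 : 0 < y := by linarith
  have hy6 : 0 < y ^ 6 := by positivity
  have hx0 : 0 < x := by linarith
  have hβx : 0 < β - x := by linarith
  have hβ0 : 0 < β := by linarith
  have h5 : 8 * ℓ * (x * y ^ 2 + β) ≤ 8 * (y / 100) * (x * y ^ 2 + β) := by gcongr
  refine h5.trans ?_
  have h5' : (β - x) / 2 * (x / y) = ((β - x) / 2 * x) / y := by ring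
  rw [h5', le_div_iff₀ hy0]
  have h6 : 8 * (y / 100) * (x * y ^ 2 + β) * y = 8 / 100 * (y ^ 4 * x + y ^ 2 * β) := by ring
  rw [h6]
  have hy4 : y ^ 4 ≤ y ^ 6 := pow_le_pow_right₀ (by linarith) (by norm_num)
  have hy26 : y ^ 2 ≤ y ^ 6 := pow_le_pow_right₀ (by linarith) (by norm_num)
  have h7 : y ^ 4 * x ≤ (β - x) * x := by
    have : y ^ 4 ≤ β - x := by linarith
    gcongr
  have h8 : y ^ 2 * β ≤ 2 * ((β - x) * x) := by
    rcases le_total β (2 * x) with h | h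
    · have : y ^ 2 ≤ β - x := by linarith
      calc y ^ 2 * β ≤ (β - x) * (2 * x) := by gcongr
        _ = 2 * ((β - x) * x) := by ring
    · have h9 : y ^ 2 ≤ x := hy26.trans hyx
      calc y ^ 2 * β ≤ x * (2 * (β - x)) := by
            have : β ≤ 2 * (β - x) := by linarith
            gcongr
        _ = 2 * ((β - x) * x) := by ring
  have h10 : 0 < (β - x) * x := mul_pos hβx hx0
  linarith

/-- The deterministic core; `x = a`, `β = b`, `ℓ = log a`, `y = a^(δ/2)`. -/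
theorem core_real {x β ℓ y A R L q T N m : ℝ} (hA : 0 ≤ A) (hℓ : 1 ≤ ℓ) (hy : 100 * (A + 1) * ℓ ≤ y)
    (hyx : y ^ 6 ≤ x) (hxb : x + y ^ 6 ≤ β) (hR0 : 0 ≤ R) (hR : R ≤ y ^ 2)
    (hL0 : 0 ≤ L) (hL : L ≤ A * β * ℓ) (hq : q ≤ L / x) (hT : T = R * (q + 3))
    (hN : β ≤ N + T) (hNb : N ≤ β) (hm : x * β ≤ m + R * L) :
    (β - x) / 2 ≤ N - x ∧ 0 < β - x ∧ x * β / 2 ≤ m ∧ N + L ≤ y * β / 100 ∧
      8 * ℓ * (x * y ^ 2 + β) ≤ (β - x) / 2 * (x / y) := by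
  have hAl : 0 ≤ A * ℓ := by positivity
  have hy' : 100 * (A * ℓ) + 100 * ℓ ≤ y := by
    have : 100 * (A + 1) * ℓ = 100 * (A * ℓ) + 100 * ℓ := by ring
    linarith
  have hy1 : 100 ≤ y := by linarith
  have hy0 : 0 < y := by linarith
  have hly : ℓ ≤ y / 100 := by linarith
  have hAly : A * ℓ ≤ y / 100 := by linarith
  have hALy : (A + 1) * ℓ ≤ y / 100 := by linarith
  have hy3x : y ^ 3 ≤ x := (pow_le_pow_right₀ (by linarith) (by norm_num : 3 ≤ 6)).trans hyx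
  have hy6 : 0 < y ^ 6 := by positivity
  have hx0 : 0 < x := by linarith
  have hβx : 0 < β - x := by linarith
  have hβ0 : 0 < β := by linarith
  have hTb : T ≤ (β - x) / 2 := by
    have hq2 : q ≤ A * β * ℓ / x := hq.trans (by gcongr)
    have h1 : 0 ≤ A * β * ℓ / x + 3 := by
      have : 0 ≤ A * ℓ * β / x := by positivity
      have h2 : A * β * ℓ / x = A * ℓ * β / x := by ring
      rw [h2]; linarith
    calc T = R * (q + 3) := hT
      _ ≤ R * (A * β * ℓ / x + 3) := by gcongr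
      _ ≤ y ^ 2 * (A * β * ℓ / x + 3) := by gcongr
      _ ≤ (β - x) / 2 := core_T hy1 hAly hy3x hxb
  have hRL : R * L ≤ x * β / 2 := by
    have h0 : 0 < x * β := mul_pos hx0 hβ0
    calc R * L ≤ y ^ 2 * L := by gcongr
      _ ≤ y ^ 2 * (A * β * ℓ) := by gcongr
      _ = (A * ℓ) * (y ^ 2 * β) := by ring
      _ ≤ (y / 100) * (y ^ 2 * β) := by gcongr
      _ = y ^ 3 * (β / 100) := by ring
      _ ≤ x * (β / 100) := by gcongr
      _ ≤ x * β / 2 := by linarith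
  have h3 : N + L ≤ y * β / 100 := by
    have h4 : β ≤ ℓ * β := le_mul_of_one_le_left hβ0.le hℓ
    calc N + L ≤ β + A * β * ℓ := by linarith
      _ ≤ ℓ * β + A * β * ℓ := by linarith
      _ = ((A + 1) * ℓ) * β := by ring
      _ ≤ (y / 100) * β := by gcongr
      _ = y * β / 100 := by ring
  exact ⟨by linarith, hβx, by linarith, h3, core_gain hy1 hly hyx hxb⟩

theorem choose_bound {N m : ℕ} (hN : 1 ≤ N) : (N + m - 1).choose m ≤ (N + m) ^ N := by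
  obtain ⟨n, rfl⟩ : ∃ n, N = n + 1 := ⟨N - 1, by omega⟩
  have h1 : n + 1 + m - 1 = n + m := by omega
  rw [h1]
  have h2 : (n + m).choose m = (n + m).choose n := by
    rw [← Nat.choose_symm_of_eq_add (Nat.add_comm n m)]
  rw [h2]
  calc (n + m).choose n ≤ (n + m) ^ n := Nat.choose_le_pow _ _
    _ ≤ (n + 1 + m) ^ n := Nat.pow_le_pow_left (by omega) _
    _ ≤ (n + 1 + m) ^ (n + 1) := Nat.pow_le_pow_right (by omega) (by omega)

/-- The losses, as a real inequality, from the deterministic conditions. -/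
theorem losses {A y : ℝ} {a b R Lam N m : ℕ} (hA : 0 ≤ A) (hℓ : 1 ≤ Real.log a)
    (hy : 100 * (A + 1) * Real.log a ≤ y) (hyx : y ^ 6 ≤ a)
    (hb2 : b ≤ a ^ 2) (hR : (R : ℝ) ≤ y ^ 2) (hL : (Lam : ℝ) ≤ A * b * Real.log a)
    (hN1 : 1 ≤ N) (hNb : N ≤ b) (hmb : m ≤ a * b) :
    ((Lam : ℝ) + 1) ^ (a * R) * (((N + m - 1).choose m : ℕ) : ℝ) ≤
      Real.exp (4 * Real.log a * (a * y ^ 2 + b)) := by
  have ha0 : (0 : ℝ) < a := by
    rcases Nat.eq_zero_or_pos a with h | h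
    · rw [h] at hℓ; simp at hℓ; linarith
    · exact_mod_cast h
  have hAl : 0 ≤ A * Real.log a := by positivity
  have hy' : 100 * (A * Real.log a) + 100 * Real.log a ≤ y := by
    have : 100 * (A + 1) * Real.log a = 100 * (A * Real.log a) + 100 * Real.log a := by ring
    linarith
  have hy1 : 100 ≤ y := by linarith
  have hy0 : 0 < y := by linarith
  have hx3 : (1 : ℝ) ≤ a := by
    have : (1 : ℝ) ≤ y ^ 6 := one_le_pow₀ (by linarith)
    linarith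
  have hb2' : (b : ℝ) ≤ (a : ℝ) ^ 2 := by exact_mod_cast hb2
  have hya : y ≤ a := by
    have := pow_le_pow_right₀ (by linarith : (1:ℝ) ≤ y) (by norm_num : 1 ≤ 6)
    simp only [pow_one] at this
    linarith
  have h100a : (100 : ℝ) ≤ a := by linarith
  have hexp : Real.exp (4 * Real.log a) = (a : ℝ) ^ 4 := by
    rw [mul_comm, Real.exp_mul, Real.exp_log ha0]
    norm_cast
  have h3pos : (0:ℝ) < (a : ℝ) ^ 3 := by positivity
  have h31 : (1 : ℝ) ≤ (a : ℝ) ^ 3 := one_le_pow₀ hx3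
  have h4eq : (a : ℝ) ^ 4 = a * (a : ℝ) ^ 3 := by ring
  have h43 : 100 * (a : ℝ) ^ 3 ≤ (a : ℝ) ^ 4 := by
    rw [h4eq]; gcongr
  have hb0 : (0 : ℝ) ≤ b := Nat.cast_nonneg _
  have hL4 : ((Lam : ℝ) + 1) ≤ (a : ℝ) ^ 4 := by
    have h6 : (Lam : ℝ) ≤ a * (a : ℝ) ^ 2 := by
      calc (Lam : ℝ) ≤ A * b * Real.log a := hL
        _ = (A * Real.log a) * b := by ring
        _ ≤ y * b := by
            have : A * Real.log a ≤ y := by linarith
            gcongr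
        _ ≤ a * (a : ℝ) ^ 2 := by gcongr
    have h7 : (a : ℝ) * (a : ℝ) ^ 2 = (a : ℝ) ^ 3 := by ring
    linarith
  have hNm4 : ((N : ℝ) + m) ≤ (a : ℝ) ^ 4 := by
    have h6 : (N : ℝ) ≤ (a : ℝ) ^ 2 := by
      have : (N : ℝ) ≤ b := by exact_mod_cast hNb
      linarith
    have h7 : (m : ℝ) ≤ a * (a : ℝ) ^ 2 := by
      have : (m : ℝ) ≤ a * b := by exact_mod_cast hmb
      calc (m : ℝ) ≤ a * b := this
        _ ≤ a * (a : ℝ) ^ 2 := by gcongr
    have h8 : (a : ℝ) * (a : ℝ) ^ 2 = (a : ℝ) ^ 3 := by ring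
    have h10 : (a : ℝ) ^ 2 ≤ (a : ℝ) ^ 3 := pow_le_pow_right₀ hx3 (by norm_num)
    linarith
  have hlog0 : 0 ≤ Real.log a := by linarith
  have hU1 : ((Lam : ℝ) + 1) ^ (a * R) ≤ Real.exp (4 * Real.log a * (a * y ^ 2)) := by
    calc ((Lam : ℝ) + 1) ^ (a * R) ≤ (Real.exp (4 * Real.log a)) ^ (a * R) := by
          rw [hexp]
          exact pow_le_pow_left₀ (by positivity) hL4 _
      _ = Real.exp (((a * R : ℕ) : ℝ) * (4 * Real.log a)) := by
          rw [← Real.exp_nat_mul]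
      _ ≤ Real.exp (4 * Real.log a * (a * y ^ 2)) := by
          apply Real.exp_le_exp.2
          rw [Nat.cast_mul, mul_comm]
          gcongr
  have hU2 : (((N + m - 1).choose m : ℕ) : ℝ) ≤ Real.exp (4 * Real.log a * b) := by
    have h6 : (((N + m - 1).choose m : ℕ) : ℝ) ≤ ((N : ℝ) + m) ^ N := by
      exact_mod_cast choose_bound hN1 (m := m)
    calc (((N + m - 1).choose m : ℕ) : ℝ) ≤ ((N : ℝ) + m) ^ N := h6
      _ ≤ (Real.exp (4 * Real.log a)) ^ N := by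
          rw [hexp]
          exact pow_le_pow_left₀ (by positivity) hNm4 _
      _ = Real.exp ((N : ℝ) * (4 * Real.log a)) := by
          rw [← Real.exp_nat_mul]
      _ ≤ Real.exp (4 * Real.log a * b) := by
          apply Real.exp_le_exp.2
          rw [mul_comm]
          have : (N : ℝ) ≤ b := by exact_mod_cast hNb
          gcongr
  calc ((Lam : ℝ) + 1) ^ (a * R) * (((N + m - 1).choose m : ℕ) : ℝ)
      ≤ Real.exp (4 * Real.log a * (a * y ^ 2)) * Real.exp (4 * Real.log a * b) :=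
        mul_le_mul hU1 hU2 (Nat.cast_nonneg _) (Real.exp_pos _).le
    _ = Real.exp (4 * Real.log a * (a * y ^ 2 + b)) := by
        rw [← Real.exp_add]; ring_nf

/-- Everything about the numbers, from the deterministic conditions. -/
theorem core_facts {A y : ℝ} {a b R Lam N m : ℕ} (hA : 0 ≤ A) (hℓ : 1 ≤ Real.log a)
    (hy : 100 * (A + 1) * Real.log a ≤ y) (hyx : y ^ 6 ≤ a) (hxb : (a : ℝ) + y ^ 6 ≤ b)
    (hR : (R : ℝ) ≤ y ^ 2) (hL : (Lam : ℝ) ≤ A * b * Real.log a)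
    (hN : b ≤ N + R * (Lam / a + 3)) (hNb : N ≤ b) (hm : a * b ≤ m + R * Lam) :
    a < N ∧ (1 : ℝ) ≤ a / y ∧ 25 * ((a : ℝ) / y) * (N + Lam) ≤ m ∧
      8 * Real.log a * (a * y ^ 2 + b) ≤ ((N : ℝ) - a) * (a / y) := by
  have ha0 : (0 : ℝ) < a := by
    rcases Nat.eq_zero_or_pos a with h | h
    · rw [h] at hℓ; simp at hℓ; linarith
    · exact_mod_cast h
  have hAl : 0 ≤ A * Real.log a := by positivity
  have hy' : 100 * (A * Real.log a) + 100 * Real.log a ≤ y := by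
    have : 100 * (A + 1) * Real.log a = 100 * (A * Real.log a) + 100 * Real.log a := by ring
    linarith
  have hy1 : 100 ≤ y := by linarith
  have hy0 : 0 < y := by linarith
  have hN' : (b : ℝ) ≤ N + R * (((Lam / a : ℕ) : ℝ) + 3) := by exact_mod_cast hN
  have hNb' : (N : ℝ) ≤ b := by exact_mod_cast hNb
  have hm' : (a : ℝ) * b ≤ m + R * Lam := by exact_mod_cast hm
  obtain ⟨h1, h2, h3, h4, h5⟩ := core_real (x := a) (β := b) (ℓ := Real.log a) (y := y) (A := A)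
    (R := R) (L := Lam) (q := ((Lam / a : ℕ) : ℝ)) (T := R * (((Lam / a : ℕ) : ℝ) + 3)) (N := N)
    (m := m) hA hℓ hy hyx hxb (Nat.cast_nonneg _) hR (Nat.cast_nonneg _) hL Nat.cast_div_le rfl
    hN' hNb' hm'
  have haN : a < N := by
    have : (a : ℝ) < N := by linarith
    exact_mod_cast this
  have hya : y ≤ a := by
    have := pow_le_pow_right₀ (by linarith : (1:ℝ) ≤ y) (by norm_num : 1 ≤ 6)
    simp only [pow_one] at this
    linarith
  have hxy : (1 : ℝ) ≤ a / y := by rw [le_div_iff₀ hy0]; linarith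
  refine ⟨haN, hxy, ?_, ?_⟩
  · have hb0 : (0 : ℝ) ≤ b := Nat.cast_nonneg _
    calc 25 * ((a : ℝ) / y) * (N + Lam) ≤ 25 * ((a : ℝ) / y) * (y * b / 100) := by gcongr
      _ = (a * b / 4) * (y / y) := by ring
      _ = a * b / 4 := by rw [div_self hy0.ne', mul_one]
      _ ≤ a * b / 2 := by
          have : (0 : ℝ) ≤ a * b := by positivity
          linarith
      _ ≤ m := h3
  · refine h5.trans ?_
    have : (0 : ℝ) ≤ a / y := by linarith
    gcongr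

/-- Natural number version of the comparison (ratio as in H129), from the deterministic
conditions. -/
theorem core_nat {A y : ℝ} {a b R Lam N m : ℕ} (hA : 0 ≤ A) (hℓ : 1 ≤ Real.log a)
    (hy : 100 * (A + 1) * Real.log a ≤ y) (hyx : y ^ 6 ≤ a) (hxb : (a : ℝ) + y ^ 6 ≤ b)
    (hb2 : b ≤ a ^ 2) (hR : (R : ℝ) ≤ y ^ 2) (hL : (Lam : ℝ) ≤ A * b * Real.log a)
    (hN : b ≤ N + R * (Lam / a + 3)) (hNb : N ≤ b) (hm : a * b ≤ m + R * Lam) (hmb : m ≤ a * b) :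
    a < N ∧ (Lam + 1) ^ (a * R) * (N + m - 1).choose m ≤
      2 ^ ((N - a) * (m / (2 * (N + Lam)))) := by
  obtain ⟨haN, hxy, h3, h5⟩ := core_facts hA hℓ hy hyx hxb hR hL hN hNb hm
  refine ⟨haN, ?_⟩
  set D : ℕ := m / (2 * (N + Lam)) with hD
  have hDlow : (a : ℝ) / y ≤ D := by
    have hden : 0 < 2 * (N + Lam) := by omega
    have h := Nat.lt_mul_div_succ m hden
    have h' : (m : ℝ) < ((2 * (N + Lam) * (m / (2 * (N + Lam)) + 1) : ℕ) : ℝ) := by
      exact_mod_cast h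
    rw [← hD] at h'
    push_cast at h'
    have hNL : (0 : ℝ) < (N : ℝ) + Lam := by
      have : (0 : ℝ) < N := by exact_mod_cast (by omega : 0 < N)
      positivity
    have h6 : 25 * ((a : ℝ) / y) * (N + Lam) < (2 * ((D : ℝ) + 1)) * (N + Lam) := by
      calc 25 * ((a : ℝ) / y) * (N + Lam) ≤ m := h3
        _ < 2 * ((N : ℝ) + Lam) * (D + 1) := h'
        _ = (2 * ((D : ℝ) + 1)) * (N + Lam) := by ring
    have h7 : 25 * ((a : ℝ) / y) < 2 * ((D : ℝ) + 1) := lt_of_mul_lt_mul_right h6 hNL.le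
    linarith
  set E : ℕ := (N - a) * D with hEdef
  have hE : 8 * Real.log a * (a * y ^ 2 + b) ≤ (E : ℝ) := by
    refine h5.trans ?_
    rw [hEdef, Nat.cast_mul, Nat.cast_sub haN.le]
    have h7 : (0 : ℝ) ≤ (N : ℝ) - a := by
      have : (a : ℝ) ≤ N := by exact_mod_cast haN.le
      linarith
    gcongr
  have h2e : (2 : ℝ) ^ E = Real.exp ((E : ℝ) * Real.log 2) := by
    rw [Real.exp_nat_mul, Real.exp_log (by norm_num)]
  have hE0 : (0 : ℝ) ≤ (E : ℝ) := Nat.cast_nonneg _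
  have hlog2 : (1 : ℝ) / 2 ≤ Real.log 2 := by
    have := Real.log_two_gt_d9
    linarith
  have hexpo : 4 * Real.log a * (a * y ^ 2 + b) ≤ (E : ℝ) * Real.log 2 := by
    have h8 : (E : ℝ) * (1 / 2) ≤ (E : ℝ) * Real.log 2 := mul_le_mul_of_nonneg_left hlog2 hE0
    linarith
  have hfin : ((Lam : ℝ) + 1) ^ (a * R) * (((N + m - 1).choose m : ℕ) : ℝ) ≤ (2 : ℝ) ^ E := by
    rw [h2e]
    exact (losses hA hℓ hy hyx hb2 hR hL (by omega) hNb hmb).trans (Real.exp_le_exp.2 hexpo)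
  have hfin2 : (((Lam + 1) ^ (a * R) * (N + m - 1).choose m : ℕ) : ℝ) ≤ ((2 ^ E : ℕ) : ℝ) := by
    rw [Nat.cast_mul, Nat.cast_pow, Nat.cast_pow, Nat.cast_add, Nat.cast_one, Nat.cast_ofNat]
    exact hfin
  exact Nat.cast_le.mp hfin2

/-- Exponential version. -/
theorem core_exp {A y : ℝ} {a b R Lam N m : ℕ} (hA : 0 ≤ A) (hℓ : 1 ≤ Real.log a)
    (hy : 100 * (A + 1) * Real.log a ≤ y) (hyx : y ^ 6 ≤ a) (hxb : (a : ℝ) + y ^ 6 ≤ b)
    (hb2 : b ≤ a ^ 2) (hR : (R : ℝ) ≤ y ^ 2) (hL : (Lam : ℝ) ≤ A * b * Real.log a)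
    (hN : b ≤ N + R * (Lam / a + 3)) (hNb : N ≤ b) (hm : a * b ≤ m + R * Lam) (hmb : m ≤ a * b) :
    a < N ∧ ((Lam : ℝ) + 1) ^ (a * R) * (((N + m - 1).choose m : ℕ) : ℝ) ≤
      Real.exp (((N - a : ℕ) : ℝ) * (m : ℝ) / ((N + Lam : ℕ) : ℝ)) := by
  obtain ⟨haN, hxy, h3, h5⟩ := core_facts hA hℓ hy hyx hxb hR hL hN hNb hm
  refine ⟨haN, (losses hA hℓ hy hyx hb2 hR hL (by omega) hNb hmb).trans (Real.exp_le_exp.2 ?_)⟩
  have hNL : (0 : ℝ) < ((N + Lam : ℕ) : ℝ) := by exact_mod_cast (by omega : 0 < N + Lam)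
  have h7 : (0 : ℝ) ≤ (N : ℝ) - a := by
    have : (a : ℝ) ≤ N := by exact_mod_cast haN.le
    linarith
  have hℓ0 : 0 ≤ 8 * Real.log a * (a * y ^ 2 + b) := by
    have : (0:ℝ) ≤ a * y ^ 2 + b := by positivity
    positivity
  rw [le_div_iff₀ hNL, Nat.cast_sub haN.le]
  have h8 : (0 : ℝ) ≤ (a : ℝ) / y * (N + Lam) := by positivity
  calc 4 * Real.log a * (a * y ^ 2 + b) * ((N + Lam : ℕ) : ℝ)
      ≤ 8 * Real.log a * (a * y ^ 2 + b) * ((N + Lam : ℕ) : ℝ) := by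
        gcongr; linarith
    _ ≤ ((N : ℝ) - a) * (a / y) * ((N + Lam : ℕ) : ℝ) := by gcongr
    _ = ((N : ℝ) - a) * ((a : ℝ) / y * (N + Lam)) := by push_cast; ring
    _ ≤ ((N : ℝ) - a) * (25 * ((a : ℝ) / y) * (N + Lam)) := by
        gcongr
        linarith
    _ ≤ ((N : ℝ) - a) * m := by gcongr

/-- The eventual choice of `y = a^(δ/2)`. -/
theorem eventually_y {δ : ℝ} (hδ : 0 < δ) (hδ1 : δ ≤ 1 / 3) (A : ℝ) :
    ∀ᶠ a : ℕ in atTop, 1 ≤ Real.log a ∧ 100 * (A + 1) * Real.log a ≤ (a : ℝ) ^ (δ / 2) ∧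
      ((a : ℝ) ^ (δ / 2)) ^ 6 ≤ a ∧ ((a : ℝ) ^ (δ / 2)) ^ 6 = (a : ℝ) ^ (3 * δ) ∧
      ((a : ℝ) ^ (δ / 2)) ^ 2 = (a : ℝ) ^ δ := by
  have h1 : Tendsto (fun a : ℕ => Real.log (a : ℝ)) atTop atTop :=
    Real.tendsto_log_atTop.comp tendsto_natCast_atTop_atTop
  have h2 : ∀ᶠ x : ℝ in atTop, ‖Real.log x‖ ≤ (1 / (100 * (|A| + 1))) * ‖x ^ (δ / 2)‖ := by
    have := (isLittleO_log_rpow_atTop (half_pos hδ)).def
      (show (0 : ℝ) < 1 / (100 * (|A| + 1)) by positivity)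
    exact this
  have h3 := tendsto_natCast_atTop_atTop (R := ℝ) |>.eventually h2
  filter_upwards [h1.eventually_ge_atTop 1, h3, eventually_ge_atTop 1] with a ha1 ha2 ha3
  have ha0 : (0 : ℝ) ≤ a := Nat.cast_nonneg _
  have ha1' : (1 : ℝ) ≤ a := by exact_mod_cast ha3
  have hy0 : (0 : ℝ) ≤ (a : ℝ) ^ (δ / 2) := Real.rpow_nonneg ha0 _
  have e6 : ((a : ℝ) ^ (δ / 2)) ^ 6 = (a : ℝ) ^ (3 * δ) := by
    rw [← Real.rpow_natCast, ← Real.rpow_mul ha0]
    congr 1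
    push_cast
    ring
  have e2 : ((a : ℝ) ^ (δ / 2)) ^ 2 = (a : ℝ) ^ δ := by
    rw [← Real.rpow_natCast, ← Real.rpow_mul ha0]
    congr 1
    push_cast
    ring
  refine ⟨ha1, ?_, ?_, e6, e2⟩
  · rw [Real.norm_of_nonneg (by linarith), Real.norm_of_nonneg hy0, div_mul_eq_mul_div, one_mul,
      le_div_iff₀ (by positivity)] at ha2
    have h4 : A ≤ |A| := le_abs_self A
    calc 100 * (A + 1) * Real.log a ≤ 100 * (|A| + 1) * Real.log a := by gcongr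
      _ = Real.log a * (100 * (|A| + 1)) := by ring
      _ ≤ _ := ha2
  · rw [e6]
    calc (a : ℝ) ^ (3 * δ) ≤ (a : ℝ) ^ (1 : ℝ) :=
          Real.rpow_le_rpow_of_exponent_le ha1' (by linarith)
      _ = a := Real.rpow_one _

/-- **(H1)**, the frozen statement. -/
theorem num_stmt : Vale.Agent.P181.T4.NumStmt := by
  intro δ hδ hδ1 A0 hA0
  filter_upwards [eventually_y hδ hδ1 A0] with a ha
  obtain ⟨h1, h2, h3, h4, h5⟩ := ha
  intro b N m L hb hb2 hL hNb hN hmb hm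
  have hR : ((⌊(a : ℝ) ^ δ⌋₊ : ℕ) : ℝ) ≤ ((a : ℝ) ^ (δ / 2)) ^ 2 := by
    rw [h5]
    exact Nat.floor_le (Real.rpow_nonneg (Nat.cast_nonneg _) _)
  obtain ⟨g1, g2⟩ := core_exp (A := A0) (y := (a : ℝ) ^ (δ / 2)) hA0.le h1 h2 h3
    (by rw [h4]; exact hb) hb2 hR hL hN hNb hm hmb
  refine ⟨g1.le, ?_⟩
  have e : (m + N - 1).choose (N - 1) = (N + m - 1).choose m := by
    have hN1 : 1 ≤ N := by omega
    have e1 : m + N - 1 = m + (N - 1) := by omega
    have e2 : N + m - 1 = m + (N - 1) := by omega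
    rw [e1, e2, Nat.choose_symm_add]
  rw [e]
  exact g2

/-- The variant with the ratio `2 ^ ((N - a) * (m / (2 * (N + L))))` (route 2). -/
theorem num_nat {δ A0 : ℝ} (hδ : 0 < δ) (hδ1 : δ ≤ 1 / 3) (hA0 : 0 < A0) :
    ∀ᶠ a : ℕ in atTop, ∀ b R Lam N m : ℕ, (a : ℝ) + (a : ℝ) ^ (3 * δ) ≤ b → b ≤ a ^ 2 →
      (R : ℝ) ≤ (a : ℝ) ^ δ → (Lam : ℝ) ≤ A0 * b * Real.log a → b ≤ N + R * (Lam / a + 3) →
      N ≤ b → a * b ≤ m + R * Lam → m ≤ a * b →
      a < N ∧ (Lam + 1) ^ (a * R) * (N + m - 1).choose m ≤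
        2 ^ ((N - a) * (m / (2 * (N + Lam)))) := by
  filter_upwards [eventually_y hδ hδ1 A0] with a ha
  obtain ⟨h1, h2, h3, h4, h5⟩ := ha
  intro b R L N m hb hb2 hR hL hN hNb hm hmb
  exact core_nat (A := A0) (y := (a : ℝ) ^ (δ / 2)) hA0.le h1 h2 h3 (by rw [h4]; exact hb) hb2
    (by rw [h5]; exact hR) hL hN hNb hm hmb

end Vale.Agent.P181.H661
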